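import Vale.Agent.P144B.Defs
import Vale.Agent.P144D.I.U.Deep

/-!
Deep points of the dug sets.
-/

namespace Vale.Agent.P144B

open Finset Vale.Agent.P144Z GeoA IConv IDeep VDeep

theorem exists_dirM {Λ P : Finset (ℤ × ℤ)} {α α' κ : ℝ} {N₀ r : ℕ} (h : RawM Λ P α' κ N₀ r)
    (hα : 0 < α) (a1 : α ≤ α') (a2 : α ≤ 1) (h0 : 0 ≤ κ) (h1 : 100 * κ ≤ α) (z : ℤ × ℤ) :
    ∃ a b, Dir Λ (α / 2) r z a b := by
  have h2 : 100 * κ ≤ 1 := h1.trans a2
  have sh : ∀ (p u x : ℤ × ℤ) (w : ℤ × ℤ), zd (x - p) (u - p + w) = zd x (u + w) := by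
    intro p u x w
    simp only [zd, Prod.fst_add, Prod.snd_add, Prod.fst_sub, Prod.snd_sub]
    omega
  rcases h.chart z with ⟨⟨S, ν, n1, e1, hS⟩, -⟩ | ⟨p, -, ρ, hρ, un, S₁, S₂, ν₁, ν₂, k, hS⟩
  · refine ⟨ν.re, ν.im, abs_re n1, abs_im n1, fun u x t D hu hur hxr hx hD => ?_⟩
    have k1 := (hS (u - z) (by rwa [zd_sub_zero])).1 (by simpa using hu)
    have k2 : 9 * (D + 1) ≤ t := by
      have t0 : (0 : ℝ) ≤ t := Nat.cast_nonneg t
      have : 9 * ((D : ℝ) + 1) ≤ t := by nlinarith [Nat.cast_nonneg (α := ℝ) D]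
      exact_mod_cast this
    have k3 := e1 _ k1 _ (P144L.G.cn_rd n1 k2 (d := x - (u + P144L.G.rd ν t))
      (by rw [zd_sub_zero]; exact hx))
    rw [show u - z + (P144L.G.rd ν t + (x - (u + P144L.G.rd ν t))) = x - z by abel] at k3
    simpa using (hS (x - z) (by rwa [zd_sub_zero])).2 k3
  · obtain ⟨a, b, ha, hb, m1, m2⟩ := exists_mu k.n₁ k.n₂ hα (a1.trans k.add)
    refine ⟨a, b, ha, hb, fun u x t D hu hur hxr hx hD => ?_⟩
    replace hD : 5 * ((D : ℝ) + 1) ≤ t * α :=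
      hD.trans (mul_le_mul_of_nonneg_left (by linarith) (Nat.cast_nonneg t))
    have t1 := zd_tri u z p
    have t2 := zd_tri x z p
    have k1 := (hS (u - p) (by rw [zd_sub_zero]; omega)).1 (by simpa using hu)
    rw [← sh p] at hx
    have := (hS (x - p) (by rw [zd_sub_zero]; omega)).2
      (two_imp k1 (fun o => up k.e₁ k.n₁ h0 h1 h2 ha hb m1 o hx hD)
        fun o => up k.e₂ k.n₂ h0 h1 h2 ha hb m2 o hx hD)
    simpa using this

theorem deepM : DeepM := by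
  intro α hα t N
  have α0 : 0 < min α 1 := by positivity
  have α1 : 0 < min α 1 / 2 := by positivity
  obtain ⟨C, hC, hCt⟩ : ∃ C : ℕ, 300 ≤ C * (min α 1 / 2) ∧ t ≤ C :=
    ⟨⌈300 / (min α 1 / 2)⌉₊ + t, by
      have := (div_le_iff₀ α1).1 (Nat.le_ceil (300 / (min α 1 / 2)))
      have := mul_nonneg (Nat.cast_nonneg (α := ℝ) t) α1.le
      push_cast
      linarith, Nat.le_add_left _ _⟩
  refine ⟨(C + 50) * (t + C + 1) + (t + 2 * C + 2 * N + 2), 1, le_rfl,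
    fun κ h0 h1 Λ P N₀ r r' T h hΛ hP hR hr => ?_⟩
  have hs : ∀ s, 1 ≤ s → ((C + 50) * (t + C + 1) + (t + 2 * C + 2 * N + 2)) * s ≤ r' →
      (C + 50) * (s + (t + C)) ≤ ((C + 50) * (t + C + 1) + (t + 2 * C + 2 * N + 2)) * s ∧
        N * (s + 1) ≤ r' ∧ s ≤ r' ∧ ∀ p ∈ P, ∃ v, v ∉ Λ ∧ zd v p ≤ C := by
    intro s k1 k2
    have a1 : (C + 50) * (s + (t + C)) ≤ (C + 50) * (t + C + 1) * s := by
      rw [mul_assoc]
      exact Nat.mul_le_mul_left _ (by nlinarith)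
    have a2 : N * (s + 1) + s + C ≤ (t + 2 * C + 2 * N + 2) * s := by nlinarith
    rw [add_mul ((C + 50) * (t + C + 1))] at k2 ⊢
    exact ⟨by omega, by omega, by omega,
      fun p hp => (hP p hp).imp fun v hv => ⟨hv.1, hv.2.trans hCt⟩⟩
  refine ⟨fun d hd k u hu => ?_, fun d s hd k1 k p p' hp hp' hpp => ?_,
    fun s k1 k f f' hf hf' hff => ?_⟩
  · obtain ⟨a1, -, -, a2⟩ := hs d hd k
    obtain ⟨a, b, hD⟩ := exists_dirM h α0 (min_le_left _ _) (min_le_right _ _) h0.le h1 u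
    obtain ⟨p, p1, p2⟩ := cork hD hC (d := d + (t + C)) (by omega) (by omega) (mem_dig.1 hu).1
    exact ⟨p, p1.trans a1, deep_dig a2 p2⟩
  · obtain ⟨a1, -, -, a2⟩ := hs s (by omega) k
    obtain ⟨a, b, hD⟩ := exists_dirM h α0 (min_le_left _ _) (min_le_right _ _) h0.le h1 p
    have a3 : (C + 50) * s ≤ (C + 50) * (s + (t + C)) := Nat.mul_le_mul_left _ (by omega)
    exact rch_mono (fun _ => deep_dig a2) (conn hD α1 hC (d := d + (t + C)) (e := 2 * d)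
      (by omega) (by omega) (by omega) (fun v hv => (mem_dig.1 (hp v hv)).1)
      (fun v hv => (mem_dig.1 (hp' v hv)).1) hpp)
  · obtain ⟨-, a1, a2, -⟩ := hs s k1 k
    have : NeZero (4 * (T + r) + 2) := ⟨by omega⟩
    exact out (fun v hv => hΛ v (mem_dig.1 hv).1)
      ((hR (4 * (T + r) + 2) (by omega)).conn _ s a1) (by omega) hf hf' hff

end Vale.Agent.P144B
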