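import Vale.Agent.P144B.Stmt
import Vale.Agent.P144C.Defs
import Vale.Agent.P144L.Defs2

/-!
Domains that are locally Lipschitz or have a corner: definitions and the statements of the blocks.
-/

namespace Vale.Agent.P144B

open Finset Vale.Agent.P144 Vale.Agent.P144Z Vale.Agent.P144L Vale.Agent.P144C UL

/-- Near `z` the set lies above a graph of slope one. -/
def ConeAt (D : Set ℂ) (z : ℂ) : Prop :=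
  ∃ r > (0 : ℝ), ∃ (S : Set ℂ) (ν : ℂ), ‖ν‖ = 1 ∧ Cone S ν (√2 / 2) ∧
    D ∩ Metric.ball z r = S ∩ Metric.ball z r

/-- The lattice version of `ConeAt`. -/
def LipAtZ (Λ : Finset (ℤ × ℤ)) (r : ℕ) (z : ℤ × ℤ) : Prop :=
  ∃ (S : Set (ℤ × ℤ)) (ν : ℂ), ‖ν‖ = 1 ∧ Epi S ν (√2 / 2) ∧
    ∀ v : ℤ × ℤ, zd v 0 ≤ r → (z + v ∈ Λ ↔ v ∈ S)

/-- Within distance `ρ` of `p` the set is a tip at `p`. -/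
def TipM (Λ : Finset (ℤ × ℤ)) (α κ : ℝ) (ρ : ℕ) (p : ℤ × ℤ) : Prop :=
  ∃ un S₁ S₂ ν₁ ν₂, TipS S₁ S₂ ν₁ ν₂ α κ ∧
    ∀ v, zd v 0 ≤ ρ → (p + v ∈ Λ ↔ v ∈ P144Z.Two un S₁ S₂)

/-- The lattice version of `MixK`. -/
structure RawM (Λ P : Finset (ℤ × ℤ)) (α κ : ℝ) (N₀ r : ℕ) : Prop where
  sep : ∀ p ∈ P, ∀ p' ∈ P, p ≠ p' → r < zd p p'
  tip : ∀ p ∈ P, TipM Λ α κ r p
  chart : ∀ z : ℤ × ℤ, LipAtZ Λ r z ∧ TrZ Λ z r N₀ ∨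
    ∃ p ∈ P, ∃ ρ, zd z p + r ≤ ρ ∧ TipM Λ α κ ρ p

/-- The points of `F` are close to the points of `Z`. -/
def Nr (a : ℝ) (F : Finset (ℤ × ℤ)) (Z : Finset ℂ) : Prop :=
  ∀ p ∈ F, ∃ z ∈ Z, ‖(⟨a * p.1, a * p.2⟩ : ℂ) - z‖ ≤ 10 * a

/-- The discretisation of the domains; the tips are at points without a chart. -/
def RawC : Prop := ∀ K < (1 : ℝ), ∃ N₀ : ℕ, ∀ α > (0 : ℝ), α ≤ 1 / 2 → ∀ κ > (0 : ℝ),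
  κ ≤ 1 / 100 → ∀ D : Set ℂ, MixK K α κ D → ∃ T > (0 : ℝ), ∃ Z : Finset ℂ,
    (∀ z ∈ Z, ¬ ConeAt D z) ∧ ∃ ρ > (0 : ℝ), ∀ a > (0 : ℝ),
      (∀ x, x ∈ disc D a ↔ (⟨a * x.1, a * x.2⟩ : ℂ) ∈ D) ∧ (∀ x ∈ disc D a, a * zd x 0 ≤ T) ∧
        ∀ r : ℕ, 1 ≤ r → a * r ≤ ρ → ∃ P, RawM (disc D a) P α κ N₀ r ∧ Nr a P Z

/-- The discretisation of the boundary conditions; the sign changes are at points with a chart. -/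
def PwC : Prop := ∀ D P : Set ℂ, IsOpen D → Bornology.IsBounded D → PWL (fun _ => True) D P →
  ∃ Z : Finset ℂ, (∀ z ∈ Z, ConeAt D z) ∧ ∃ ρ > (0 : ℝ), ∃ n : ℕ, 1 ≤ n ∧
    ∀ a > (0 : ℝ), ∀ Λ : Finset (ℤ × ℤ), (∀ x, x ∈ Λ ↔ (⟨a * x.1, a * x.2⟩ : ℂ) ∈ D) →
      ∀ r : ℕ, n ≤ r → a * r ≤ ρ → ∃ F, BcM (fun _ => True) Λ (bcOf P a) F n r ∧ Nr a F Z

/-- The shape of the dug sets. -/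
def ShM : Prop := ∀ N₀ : ℕ, ∀ α > (0 : ℝ), ∃ κ₀ > (0 : ℝ), ∃ t N Q : ℕ, 1 ≤ t ∧ 1 ≤ Q ∧
  ∀ κ, 0 < κ → κ ≤ κ₀ → ∀ (Λ P : Finset (ℤ × ℤ)) (r T : ℕ), RawM Λ P α κ N₀ r → Q ≤ r →
    (∀ v ∈ Λ, zd v 0 ≤ T) → (∀ p ∈ P, zd p 0 ≤ T + t ∧ ∃ v, v ∉ Λ ∧ zd v p ≤ t) ∧
      ∀ (M : ℕ) [NeZero M], 4 * (T + r) ≤ M →
        ShapeL ((dig Λ P t).image (prj M)) (P.image (prj M)) N (r / Q)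

/-- The dug sets have deep points. -/
def DeepM : Prop := ∀ α > (0 : ℝ), ∀ t N : ℕ, ∃ C Q : ℕ, 1 ≤ Q ∧ ∀ κ, 0 < κ →
  100 * κ ≤ min α 1 → ∀ (Λ P : Finset (ℤ × ℤ)) (N₀ r r' T : ℕ), RawM Λ P α κ N₀ r →
    (∀ v ∈ Λ, zd v 0 ≤ T) → (∀ p ∈ P, ∃ v, v ∉ Λ ∧ zd v p ≤ t) →
    (∀ (M : ℕ) [NeZero M], 4 * (T + r) ≤ M → Rgh ((dig Λ P t).image (prj M)) N r') →
    Q * r' ≤ r → DeepOK (dig Λ P t) C r'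

/-- The geometry. -/
def GeoM : Prop := ∀ N₀ : ℕ, ∀ α > (0 : ℝ), ∃ κ₀ > (0 : ℝ), ∀ ε > (0 : ℝ), ∃ L₀ : ℕ, ∀ L ≥ L₀,
  ∀ k, 1 ≤ k → ∀ κ, 0 < κ → κ ≤ κ₀ →
    GeoF (fun Λ r => ∃ P, RawM Λ P α κ N₀ r) (QU L ε k 0) L ∧
    ∀ n, GeoK2 (fun Λ b r => ∃ P F, RawM Λ P α κ N₀ r ∧ BcM (fun _ => True) Λ b F n r ∧
      ∀ p ∈ P, ∀ f ∈ F, r < zd p f) (QU L ε k 0) L (N₀ + 50)

end Vale.Agent.P144B
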