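import Vale.Agent.P144B.Defs
import Vale.Agent.P144C.T.Dig
import Vale.Agent.P144L.F.All

/-!
Domains that are locally Lipschitz or have a corner: the sets can be dug and marked.
-/

namespace Vale.Agent.P144B

open Finset Vale.Agent.P144 Vale.Agent.P144Z Vale.Agent.P144L Vale.Agent.P144C UL B5a2 ICg

theorem trZ_tip {Λ : Finset (ℤ × ℤ)} {α κ : ℝ} {ρ r : ℕ} {p z : ℤ × ℤ} (hκ : κ ≤ 1 / 8)
    (h : TipM Λ α κ ρ p) (hr : zd z p + r ≤ ρ) : TrZ Λ z r 50 := by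
  obtain ⟨un, S₁, S₂, ν₁, ν₂, hT, h⟩ := h
  have key : ∀ f, zd f z ≤ r → (f ∈ Λ ↔ f - p ∈ P144Z.Two un S₁ S₂) := fun f hf => by
    have := GeoA.zd_tri f z p
    rw [← h (f - p) (by rw [IConv.zd_sub_zero]; omega), add_sub_cancel]
  refine trZ_of_cov ((((P144C.cov_epi hT.n₁ (epi_shift (GeoA.epi_mono hT.e₁ hκ) p)).or
    (P144C.cov_epi hT.n₂ (epi_shift (GeoA.epi_mono hT.e₂ hκ) p))).or (((cov_row (z.2 + r) 1).or
    (cov_row (z.2 - r) 1)).or ((cov_col (z.1 + r) 1).or (cov_col (z.1 - r) 1)))).mono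
      (fun v ⟨hv, ⟨f, a1, a2⟩, f', a3, a4⟩ => ?_) le_rfl)
  by_cases h1 : zd v z + 2 ≤ r
  · have b1 := GeoA.zd_tri f v z
    have b2 := GeoA.zd_tri f' v z
    have c1 := (key f (by omega)).1 a1
    have c2 := fun k => a3 ((key f' (by omega)).2 k)
    cases un
    · exact Or.inl (lay_inter ⟨⟨f, c1, a2⟩, f', c2, a4⟩)
    · exact Or.inl (lay_union ⟨⟨f, c1, a2⟩, f', c2, a4⟩)
  · simp only [zd] at hv h1
    refine Or.inr ?_
    omega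

theorem trZ_le {Λ : Finset (ℤ × ℤ)} {x : ℤ × ℤ} {r N N' : ℕ} (h : TrZ Λ x r N) (hN : N ≤ N') :
    TrZ Λ x r N' := by
  obtain ⟨Hs, Vs, h1, h2, h3⟩ := h
  exact ⟨Hs, Vs, h1, fun t => (h2 t).trans hN, fun t => (h3 t).trans hN⟩

theorem shapeL_mono {M : ℕ} {I Tp : Finset (Tor M)} {N r r' : ℕ} (h : ShapeL I Tp N r)
    (hr : r' ≤ r) : ShapeL I Tp N r' :=
  ⟨h.toRgh.mono hr, fun p hp p' hp' e => hr.trans_lt (h.sep p hp p' hp' e),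
    fun y ρ h1 => h.far y ρ (h1.trans hr)⟩

theorem geoM (hS : ShM) (hD : DeepM) (hM : MarkM) (hB : BdP) : GeoM := by
  intro N₀ α hα
  obtain ⟨κ₀, hκ₀, t, N, Q, ht, hQ, hS⟩ := hS N₀ α hα
  obtain ⟨Qb, hQb, hB⟩ := hB N
  obtain ⟨Cd, Qd, hQd, hD⟩ := hD α hα t N
  obtain ⟨Kt, hT⟩ := VBc.inner hα 0
  refine ⟨min κ₀ (min (α ^ 2 / 128) (min α 1 / 100)), by positivity, fun ε hε => ?_⟩
  obtain ⟨L₀, hB⟩ := hB ε hε
  refine ⟨L₀, fun L hL k k1 κ hκ hκ' => ?_⟩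
  simp only [le_min_iff (c := κ)] at hκ'
  obtain ⟨k0, k2, k3⟩ := hκ'
  have k4 : κ ≤ 1 / 100 := by linarith [min_le_right α 1]
  have cls : ∀ D' ≥ Q + Qb, ∀ (Λ P : Finset Site) (r T : ℕ), RawM Λ P α κ N₀ r → D' ≤ r →
      (∀ v ∈ Λ, zd v 0 ≤ T) → ∀ (M : ℕ) [NeZero M], 4 * (T + r) ≤ M →
        Rgh ((dig Λ P t).image (prj M)) N (r / D') ∧ ∀ (fr : Bool) (B : Gauge M) (ρ J : ℕ),
          Str (Reg.mk ((dig Λ P t).image (prj M)) fr).pw B ρ → ρ ≤ r / D' → k ≤ J →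
          D' * sc L J ≤ ρ → QU L ε k 0 M ((Reg.mk ((dig Λ P t).image (prj M)) fr).pw * B) J := by
    intro D' h0 Λ P r T h1 h2 h3 M _ hM
    have a2 := shapeL_mono ((hS κ hκ k0 Λ P r T h1 (by omega) h3).2 M hM)
      (Nat.div_le_div_left (show Q ≤ D' by omega) hQ)
    have a3 : r / D' ≤ r := Nat.div_le_self _ _
    refine ⟨a2.toRgh, fun fr B ρ J b1 b2 b3 b4 => F.qu_of ?_ k1 b3⟩
    exact hB L hL M ⟨_, fr⟩ _ B ρ J (shapeL_mono a2 b2) b1 (by omega) (by omega)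
      ((Nat.mul_le_mul_right _ (by omega)).trans b4)
  refine ⟨⟨t, N, Q + Qb, k, ht, by omega, fun Λ r T ⟨P, hP⟩ h1 _ hΛ => ⟨P,
    (hS κ hκ k0 Λ P r T hP (by omega) hΛ).1, fun p hp p' hp' e =>
      (Nat.div_le_self _ _).trans_lt (hP.sep p hp p' hp' e),
    fun M _ hM => cls _ le_rfl Λ P r T hP h1 hΛ M hM⟩⟩, fun n => ?_⟩
  obtain ⟨E, hE⟩ : ∃ E, E = 4 * (n + 1) := ⟨_, rfl⟩
  obtain ⟨D, hD'⟩ : ∃ D, D = Q + Qb + Qd + 8 + E * (4 * t + 10) + n * Kt + 2 * Kt := ⟨_, rfl⟩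
  refine ⟨t, N, D, Cd, k, ht, by omega, fun R₀ => ?_⟩
  obtain ⟨Km, hM⟩ := hM n R₀
  refine ⟨Km, fun Λ₀ => ⟨(Λ₀ + 1 + 1) ^ 2, fun Λ b r T ⟨P, F, hP, hb, fa⟩ h0 h2 hΛ hΛ₀ => ?_⟩⟩
  have h1 : D ≤ r := (Nat.le_mul_of_pos_right _ Km.succ_pos).trans h0
  have h3 : 8 * (Km + 1) ≤ r := (Nat.mul_le_mul_right _ (by omega)).trans h0
  have d1 : Qd * (r / D) ≤ r := (Nat.mul_le_mul_right _ (by omega)).trans (Nat.mul_div_le r D)
  have d2 : r / D ≤ r / 2 := Nat.div_le_div_left (by omega) two_pos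
  have d3 : r / D ≤ r / E / 2 := by
    rw [Nat.div_div_eq_div_mul]
    have : E * 2 ≤ E * (4 * t + 10) := Nat.mul_le_mul_left _ (by omega)
    exact Nat.div_le_div_left (by omega) (by omega)
  have d4 : 4 * t + 10 ≤ r / E := (Nat.le_div_iff_mul_le (by omega)).2 (by rw [mul_comm]; omega)
  have d5 : E * (r / E) ≤ r := Nat.mul_div_le r E
  have d6 : 4 * (r / E) ≤ r := (Nat.mul_le_mul_right _ (by omega)).trans d5
  have d7 : n * (r / E) ≤ r := (Nat.mul_le_mul_right _ (by omega)).trans d5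
  have cs : ∀ p ∈ P, ∃ β, ∀ v, zd v p ≤ r / E → v ∉ Λ → b v = β := fun p hp => by
    obtain ⟨un, T₁, T₂, ν₁, ν₂, a1, a2⟩ := hP.tip p hp
    obtain ⟨a, a3, a3', a4, -⟩ := hT κ hκ.le k2 _ _ _ _ a1
    have a5 : n * zd a 0 ≤ n * Kt := Nat.mul_le_mul_left _ a4
    obtain ⟨β, h⟩ := hb.far p (fun f hf => by have := fa p hp f hf; omega) ⟨p + a,
      (a2 a (by omega)).2 (by cases un; exacts [⟨a3, a3'⟩, Or.inl a3]), by
        rw [IConv.zd_add_left]; omega⟩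
    exact ⟨β, fun v hv => h v ((Nat.mul_le_mul_left _ hv).trans d7)⟩
  choose! s hs using cs
  obtain ⟨x, e, ν, b', mg, mb, hx⟩ := hM _ Λ b F (N₀ + 50) r hb (by omega) fun f _ =>
    (hP.chart f).elim (fun h => trZ_le h.2 (by omega)) fun ⟨_, _, _, a1, a2⟩ =>
      trZ_le (trZ_tip (by linarith) a2 a1) (by omega)
  obtain ⟨b₁, b₂, e1, e2, e3, e4, e5⟩ := digM (c := id) (t := t) (ρ := r / E) hP.sep
    (fun p => by simp [zd]) hs (fun p hp i => by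
      obtain ⟨f, hf, a1⟩ := hx i
      have := fa p hp f hf
      have := GeoA.zd_tri p (x i) f
      rw [GeoA.zd_comm p (x i)] at this
      omega) (mg.mono d2) mb (by omega) (by omega)
  rw [image_id] at e2 e3 e4 e5
  have cF : F.card ≤ (Λ₀ + 1 + 1) ^ 2 := B5a2.card_net (T := Λ₀ * r + 4) (fun f hf => by
    obtain ⟨S, ν, τ, -, -, -, -, ⟨g, b3, b5⟩, -, b4, -⟩ := hb.chart f hf
    have b6 := hΛ₀ _ ((b4 g (by omega)).2 b3)
    have b7 := GeoA.zd_tri f (f + g) 0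
    rw [GeoA.zd_comm f (f + g), IConv.zd_add_left] at b7
    omega) hb.sep (by
      rw [show (Λ₀ + 1) * (2 * r + 1) = 2 * (Λ₀ * r) + Λ₀ + 2 * r + 1 by ring]
      omega)
  have p1 := (hS κ hκ k0 Λ P r T hP (by omega) hΛ).1
  have p2 := cls D (by omega) Λ P r T hP h1 hΛ
  exact ⟨P, b₁, b₂, _, x, e, ν, cF, p1, fun p hp p' hp' e =>
    (Nat.div_le_self _ _).trans_lt (hP.sep p hp p' hp' e), e1, e2, e3, e4, e5,
    hD κ hκ (by linarith) Λ P N₀ r _ T hP hΛ (fun p hp => (p1 p hp).2) (fun M _ hM => (p2 M hM).1)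
      d1, fun M _ hM => ⟨(p2 M hM).1, (p2 M hM).2 false⟩⟩

end Vale.Agent.P144B
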