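import Vale.Agent.P144B.Defs
import Vale.Agent.P144C.P.Pw

/-!
The discretisation of the boundary conditions, with the positions of the sign changes.
-/

namespace Vale.Agent.P144B

open Metric Set Filter Topology Vale.Agent.P144Z B6a Vale.Agent.P144C Vale.Agent.P144C.P

section

variable {D P : Set ℂ} {G : Finset ℂ} {R δ a : ℝ} {n r : ℕ} {Λ : Finset (ℤ × ℤ)}
  (hG : ∀ z ∈ G, z ∈ frontier D ∧ Ty (fun _ => True) D P z R ∧ ∀ y ∈ G, y ∈ ball z R → y = z)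
  (n1 : (100 : ℝ) ≤ n) (ha : 0 < a) (hr : n ≤ r) (r2 : 10 * (a * r) ≤ R)

include hG

theorem pw_cone (R0 : 0 < R) : ∀ z ∈ G, ConeAt D z := fun z hz => by
  obtain ⟨S, ν, -, hν, -, hS, -, e, -⟩ := (hG z hz).2.1
  exact ⟨R, R0, S, ν, hν, hS, Set.ext fun w =>
    ⟨fun k => ⟨(e w k.2).1 k.1, k.2⟩, fun k => ⟨(e w k.2).2 k.1, k.2⟩⟩⟩

include n1 ha hr r2

theorem pw_sep : ∀ p ∈ G.image (lp a), ∀ p' ∈ G.image (lp a), p ≠ p' → 2 * r < zd p p' := by
  intro p hp p' hp' ne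
  have r1 : (n : ℝ) ≤ r := by exact_mod_cast hr
  have r4 : 100 * a ≤ a * r := by nlinarith
  obtain ⟨z, z1, rfl⟩ := Finset.mem_image.1 hp
  obtain ⟨y, y1, rfl⟩ := Finset.mem_image.1 hp'
  by_contra c
  refine ne (congrArg _ ((hG y y1).2.2 z z1 ?_))
  have c1 : (zd (lp a z) (lp a y) : ℝ) ≤ 2 * r := by exact_mod_cast not_lt.1 c
  have c2 := pt_le ha (lp a z) (lp a y)
  have c3 := norm_sub_le_norm_sub_add_norm_sub z (pt a (lp a z)) y
  have c4 := norm_sub_le_norm_sub_add_norm_sub (pt a (lp a z)) (pt a (lp a y)) y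
  rw [norm_sub_rev z (pt _ _)] at c3
  rw [mem_ball_iff_norm]
  nlinarith [lp_est ha z, lp_est ha y]

theorem pw_chart (hD : IsOpen D) (R0 : 0 < R) (n2 : 100 ≤ R * n)
    (hL : ∀ x, x ∈ Λ ↔ pt a x ∈ D) : ∀ p ∈ G.image (lp a),
    ∃ (S : Set (ℤ × ℤ)) (ν τ : ℂ), ‖ν‖ = 1 ∧
    (τ = Complex.I * ν ∨ τ = -(Complex.I * ν)) ∧ Epi S ν (√2 / 2) ∧ True ∧
    (∃ f ∈ S, zd f 0 ≤ 4) ∧ (∃ f, f ∉ S ∧ zd f 0 ≤ 4) ∧
    (∀ v, zd v 0 ≤ r → (p + v ∈ Λ ↔ v ∈ S)) ∧
    ∀ v, zd v 0 ≤ r → p + v ∉ Λ → ∀ u ∈ Λ, n * (zd u (p + v) + 1) ≤ zd v 0 →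
      (bcOf P a (p + v) = true ↔ 0 < ht τ v) := by
  intro p hp
  have r1 : (n : ℝ) ≤ r := by exact_mod_cast hr
  have r4 : 100 * a ≤ a * r := by nlinarith
  have hB : ∀ v, bcOf P a v = true ↔ pt a v ∈ P := fun v => by
    simp only [bcOf, decide_eq_true_eq]
    rfl
  obtain ⟨z, z1, rfl⟩ := Finset.mem_image.1 hp
  obtain ⟨z2, ⟨S, ν, τ, hν, hτ, hS, -, e, k⟩, -⟩ := hG z z1
  have p1 := lp_est ha z
  have hb : ∀ x, zd x (lp a z) ≤ 2 * r → pt a x ∈ ball z R := fun x hx => by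
    have c1 : (zd x (lp a z) : ℝ) ≤ 2 * r := by exact_mod_cast hx
    have c2 := pt_le ha x (lp a z)
    have c3 := norm_sub_le_norm_sub_add_norm_sub (pt a x) (pt a (lp a z)) z
    rw [mem_ball_iff_norm]
    nlinarith
  have hz : ∀ v, zd (lp a z + v) (lp a z) = zd v 0 := fun v => by simp [zd]
  refine ⟨{v | pt a (lp a z + v) ∈ S}, ν, τ, hν, hτ, epi hS ha _, trivial,
    ⟨_, ?_, lp_near ha z ν hν⟩, ⟨_, fun c => ?_, lp_near ha z (-ν) (by simpa)⟩, fun v hv => ?_,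
    fun v hv v1 u u1 u2 => ?_⟩
  · obtain ⟨s, s1, s2⟩ := Metric.mem_closure_iff.1 (frontier_subset_closure z2) (a / 100)
      (by positivity)
    rw [dist_eq_norm] at s2
    have c1 := lp_est ha (z + (3 * a : ℝ) * ν)
    have c2 := hS s ((e s (by rw [mem_ball_iff_norm']; linarith)).1 s1)
      (pt a (lp a (z + (3 * a : ℝ) * ν)) - s) (cone_of (t := 3 * a) hν (by
        have := norm_add_le (pt a (lp a (z + (3 * a : ℝ) * ν)) - (z + (3 * a : ℝ) * ν)) (z - s)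
        rw [show ∀ w : ℂ, w - s - (3 * a : ℝ) * ν = w - (z + (3 * a : ℝ) * ν) + (z - s) from
          fun w => by ring]
        linarith))
    simpa using c2
  · have c1 := lp_est ha (z + (3 * a : ℝ) * -ν)
    simp only [mem_ofPred_eq, add_sub_cancel] at c
    have c2 := hS _ c (z - pt a (lp a (z + (3 * a : ℝ) * -ν))) (cone_of (t := 3 * a) hν (by
      rw [show ∀ w : ℂ, z - w - (3 * a : ℝ) * ν = -(w - (z + (3 * a : ℝ) * -ν)) from
        fun w => by ring, norm_neg]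
      linarith))
    rw [add_sub_cancel, ← e z (mem_ball_self R0)] at c2
    exact z2.2 (by rwa [hD.interior_eq])
  · rw [hL]
    exact e _ (hb _ (by rw [hz]; omega))
  · have c0 : zd u (lp a z + v) ≤ n * (zd u (lp a z + v) + 1) := by
      have : 1 ≤ n := by exact_mod_cast (show (1 : ℝ) ≤ n by linarith)
      nlinarith
    have c1 : zd u (lp a z) ≤ zd u (lp a z + v) + zd (lp a z + v) (lp a z) := by
      simp only [zd]
      omega
    have c2 := pt_le ha u (lp a z + v)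
    have c3 := le_pt ha (lp a z + v) (lp a z)
    have c4 := norm_sub_le_norm_sub_add_norm_sub (pt a (lp a z + v)) z (pt a (lp a z))
    have c5 : (n : ℝ) * (zd u (lp a z + v) + 1) ≤ zd v 0 := by exact_mod_cast u2
    rw [hz] at c1 c3
    rw [norm_sub_rev z] at c4
    rw [norm_sub_rev] at c2
    have c6 : (0 : ℝ) ≤ zd u (lp a z + v) := by positivity
    have c7 : 100 * a ≤ a * zd v 0 := by
      nlinarith [show (100 : ℝ) ≤ zd v 0 by nlinarith]
    have c8 : a * zd v 0 / 2 ≤ ‖pt a (lp a z + v) - z‖ := by linarith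
    have c9 : 100 * (zd u (lp a z + v) : ℝ) ≤ R * zd v 0 := by nlinarith
    rw [hB, k _ (hb _ (by rw [hz]; omega)) (mt (hL _).2 v1) _ (hb u (by omega)) ((hL _).1 u1)
      (by nlinarith [mul_le_mul_of_nonneg_left c9 ha.le, mul_le_mul_of_nonneg_left c8 R0.le])
      (-(pt a (lp a z) - z)) (by rw [norm_neg]; linarith), pt_add,
      show ∀ x y : ℂ, x + y - z + -(x - z) = y from fun x y => by ring,
      show dt (pt a v) τ = a * ht τ v by simp only [dt, pt, ht]; ring, mul_pos_iff_of_pos_left ha]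

theorem pw_far (R0 : 0 < R) (n2 : 100 ≤ R * n) (r3 : 10 * (a * r) ≤ δ)
    (hU : ∀ u ∈ D, Cs D P (ball u δ) ∨ ∃ z ∈ G, ball u δ ⊆ ball z R)
    (hL : ∀ x, x ∈ Λ ↔ pt a x ∈ D) : ∀ z, (∀ p ∈ G.image (lp a), r < 2 * zd z p) →
    (∃ u ∈ Λ, n * zd u z ≤ r) → ∃ β, ∀ v, n * zd v z ≤ r → v ∉ Λ → bcOf P a v = β := by
  intro z hz ⟨u, u1, u2⟩
  have r1 : (n : ℝ) ≤ r := by exact_mod_cast hr
  have r4 : 100 * a ≤ a * r := by nlinarith
  have hB : ∀ v, bcOf P a v = true ↔ pt a v ∈ P := fun v => by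
    simp only [bcOf, decide_eq_true_eq]
    rfl
  have n0 : (0 : ℝ) < n := by linarith
  have hb : ∀ v, n * zd v z ≤ r → pt a v ∈ closedBall (pt a z) (2 * (a * r) / n) := fun v hv => by
    have c1 : (n : ℝ) * zd v z ≤ r := by exact_mod_cast hv
    rw [mem_closedBall_iff_norm, le_div_iff₀ n0]
    nlinarith [mul_le_mul_of_nonneg_right (pt_le ha v z) n0.le]
  have c1 : 2 * (a * r) / n ≤ a * r / 50 := by
    rw [div_le_iff₀ n0]
    nlinarith
  have c2 : closedBall (pt a z) (2 * (a * r) / n) ⊆ ball (pt a u) δ :=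
    closedBall_subset_ball' (by linarith [mem_closedBall'.1 (hb u u2)])
  have c3 : Cs D P (closedBall (pt a z) (2 * (a * r) / n)) := by
    obtain k | ⟨y, y1, k⟩ := hU _ ((hL u).1 u1)
    · exact k.mono c2
    have d1 : (r : ℝ) < 2 * zd z (lp a y) := by
      exact_mod_cast hz _ (Finset.mem_image_of_mem _ y1)
    have d2 := le_pt ha z (lp a y)
    have d3 := norm_sub_le_norm_sub_add_norm_sub (pt a z) y (pt a (lp a y))
    rw [norm_sub_rev y] at d3
    have d4 : a * r / 4 ≤ ‖pt a z - y‖ := by nlinarith [lp_est ha y]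
    refine (hG y y1).2.1.cs (c2.trans k) (hb u u2) ((hL u).1 u1) (by linarith) ?_
    refine le_trans ?_ (mul_le_mul_of_nonneg_left d4 R0.le)
    rw [← mul_div_assoc, div_le_iff₀ n0]
    nlinarith
  rcases c3 with k | k
  · exact ⟨true, fun v hv v1 => (hB v).2 (k ⟨hb v hv, mt (hL v).2 v1⟩)⟩
  · exact ⟨false, fun v hv v1 => by
      rw [← Bool.not_eq_true, hB]
      exact k ⟨hb v hv, mt (hL v).2 v1⟩⟩

end

theorem pw_nr {a : ℝ} (ha : 0 < a) (G : Finset ℂ) : Nr a (G.image (lp a)) G := fun p hp => by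
  obtain ⟨z, z1, rfl⟩ := Finset.mem_image.1 hp
  have k := lp_est ha z
  exact ⟨z, z1, show ‖pt a (lp a z) - z‖ ≤ 10 * a by linarith⟩

theorem pwC : PwC := by
  intro D P hD hb h
  obtain ⟨G, R, R0, δ, δ0, hG, hU⟩ := cont hD hb h
  obtain ⟨n, hn⟩ := exists_nat_ge (100 + 100 / R)
  have n1 : (100 : ℝ) ≤ n := by linarith [show 0 ≤ 100 / R by positivity]
  have n2 : 100 ≤ R * n := by rw [← div_le_iff₀' R0]; linarith
  refine ⟨G, pw_cone hG R0, min R δ / 10, by positivity, n,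
    by exact_mod_cast (show (1 : ℝ) ≤ n by linarith), fun a ha Λ hΛ r hr har => ?_⟩
  have r2 : 10 * (a * r) ≤ R := by linarith [min_le_left R δ]
  have r3 : 10 * (a * r) ≤ δ := by linarith [min_le_right R δ]
  exact ⟨G.image (lp a), ⟨pw_sep hG n1 ha hr r2, pw_chart hG n1 ha hr r2 hD R0 n2 hΛ,
    pw_far hG n1 ha hr r2 R0 n2 r3 hU hΛ⟩, pw_nr ha G⟩

end Vale.Agent.P144B
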