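import Vale.Agent.P144B.Defs
import Vale.Agent.P144C.GeoL2
import Vale.Agent.P144C.P.Pw
import Vale.Agent.P144U.Raw.Main

/-!
The discretisation of the domains that are locally Lipschitz or have a corner.
-/

set_option linter.all false

namespace Vale.Agent.P144B

open Metric Vale.Agent.P144 Vale.Agent.P144Z B6a Ge4 RawA B5a2 ICg Vale.Agent.P144C

theorem cone_lip {K : ℝ} {u : ℂ} (hu : ‖u‖ = 1) {g : ℝ → ℝ}
    (hg : ∀ s t, |g s - g t| ≤ K * |s - t|) :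
    Cone {w | g (u * w).re < (u * w).im} ⟨u.im, u.re⟩ √(max K 0 / 2) := fun w hw v hv => by
  have h1 : ‖v‖ ^ 2 = (u * v).re * (u * v).re + (u * v).im * (u * v).im := by
    rw [← Complex.normSq_apply, ← Complex.sq_norm, norm_mul, hu, one_mul]
  have h2 := (abs_le.1 (hg ((u * w).re + (u * v).re) (u * w).re)).2
  have h4 : (u * v).im = v.re * u.im + v.im * u.re := by rw [Complex.mul_im]; ring
  rw [add_sub_cancel_left] at h2
  change g (u * w).re < (u * w).im at hw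
  change √(max K 0 / 2) * ‖v‖ ≤ v.re * u.im + v.im * u.re at hv
  change g (u * (w + v)).re < (u * (w + v)).im
  rw [mul_add, Complex.add_re, Complex.add_im]
  rw [← h4] at hv
  have k0 : 0 ≤ max K 0 := le_max_right _ _
  have h5 : 0 ≤ (u * v).im := le_trans (by positivity) hv
  have h6 : max K 0 * |(u * v).re| ≤ (u * v).im := by
    refine (abs_le_of_sq_le_sq' ?_ h5).2
    have h7 := pow_le_pow_left₀ (by positivity) hv 2
    rw [mul_pow, h1, Real.sq_sqrt (by positivity)] at h7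
    rw [mul_pow, sq_abs]
    nlinarith [mul_le_mul_of_nonneg_left h7 k0,
      mul_nonneg (sq_nonneg (max K 0 - 1)) (sq_nonneg (u * v).im)]
  have h8 := mul_le_mul_of_nonneg_right (le_max_left K 0) (abs_nonneg (u * v).re)
  linarith

theorem shr {D E : Set ℂ} {z : ℂ} {r s : ℝ} (e : D ∩ ball z r = E ∩ ball z r) (h : s ≤ r) :
    D ∩ ball z s = E ∩ ball z s := Set.ext fun w => and_congr_left fun hw => by
  simpa [ball_subset_ball h hw] using Set.ext_iff.1 e w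

theorem loc {K α κ κ' : ℝ} {D : Set ℂ} (hα : α ≤ 1 / 2) (hκ : κ ≤ 1 / 100) (k1 : κ ≤ κ')
    (k2 : √(max K 0 / 2) ≤ κ') (k3 : κ' ≤ √2 / 2) (h : MixK K α κ D) (z : ℂ) :
    ∃ r > (0 : ℝ), ∃ (un : Bool) (S₁ S₂ : Set ℂ) (ν₁ ν₂ : ℂ), ‖ν₁‖ = 1 ∧ ‖ν₂‖ = 1 ∧
      Cone S₁ ν₁ κ' ∧ Cone S₂ ν₂ κ' ∧ D ∩ ball z r = TwoC un S₁ S₂ ∩ ball z r ∧
      ((∃ (S : Set ℂ) (ν : ℂ), ‖ν‖ = 1 ∧ Cone S ν (√2 / 2) ∧ D ∩ ball z r = S ∩ ball z r) ∨
        ¬ ConeAt D z ∧ α ≤ ‖ν₁ + ν₂‖ ∧ α ≤ ‖ν₁ - ν₂‖ ∧ Cone S₁ ν₁ κ ∧ Cone S₂ ν₂ κ ∧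
          z ∈ frontier S₁ ∧ z ∈ frontier S₂) := by
  obtain ⟨r, r0, S₁, S₂, ν₁, ν₂, n₁, n₂, b0, c₁, c₂, e⟩ | ⟨r, r0, u, hu, g, hg, e⟩ := h.2.2 z
  swap
  · have n : ‖(⟨u.im, u.re⟩ : ℂ)‖ = 1 := by
      rw [← hu, Complex.norm_eq_sqrt_sq_add_sq, Complex.norm_eq_sqrt_sq_add_sq, add_comm]
    have c := Cone.mono (cone_lip hu hg) k2
    exact ⟨r, r0, false, _, _, _, _, n, n, c, c, Set.ext fun w => and_congr_left fun hw =>
      (e w hw).trans and_self_iff.symm, Or.inl ⟨_, _, n, Cone.mono c k3,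
        Set.ext fun w => and_congr_left (e w)⟩⟩
  by_cases hc : ConeAt D z
  · obtain ⟨s, s0, S, ν, n, c, e'⟩ := hc
    obtain ⟨un, e⟩ : ∃ un, D ∩ ball z r = TwoC un S₁ S₂ ∩ ball z r :=
      e.elim (fun e => ⟨false, e⟩) fun e => ⟨true, e.2.2.2⟩
    exact ⟨min r s, lt_min r0 s0, un, S₁, S₂, ν₁, ν₂, n₁, n₂, Cone.mono c₁ k1, Cone.mono c₂ k1,
      shr e (min_le_left _ _), Or.inl ⟨S, ν, n, c, shr e' (min_le_right _ _)⟩⟩
  obtain e | ⟨b1, b2, b3, e⟩ := e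
  swap
  · exact ⟨r, r0, true, S₁, S₂, ν₁, ν₂, n₁, n₂, Cone.mono c₁ k1, Cone.mono c₂ k1, e,
      Or.inr ⟨hc, b0, b1, c₁, c₂, b2, b3⟩⟩
  have k : ∀ {S : Set ℂ} {ν : ℂ} {ε : ℝ}, 0 < ε → ‖ν‖ = 1 → Cone S ν κ →
      (∀ w ∈ ball z ε, w ∈ S₁ ∩ S₂ ↔ w ∈ S) → False := fun {S ν ε} ε0 n c o =>
    hc ⟨min r ε, lt_min r0 ε0, S, ν, n, Cone.mono c (k1.trans k3), by simpa using shrink e o⟩
  refine ⟨r, r0, false, S₁, S₂, ν₁, ν₂, n₁, n₂, Cone.mono c₁ k1, Cone.mono c₂ k1, e,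
    Or.inr ⟨hc, b0, not_lt.1 fun o => hc ⟨r, r0, S₁ ∩ S₂, ν₁, n₁, fun w hw v hv =>
      ⟨Cone.mono c₁ (k1.trans k3) w hw.1 v hv, c₂ w hw.2 v ?_⟩, e⟩, c₁, c₂, not_not.1 fun f => ?_,
        not_not.1 fun f => ?_⟩⟩
  · have h1 := (abs_le.1 (P.dt_le (ν := 1) norm_one ((starRingEnd ℂ) v * (ν₁ - ν₂)))).2
    rw [norm_mul, Complex.norm_conj] at h1
    simp only [P.dt, Complex.mul_re, Complex.mul_im, Complex.conj_re, Complex.conj_im,
      Complex.sub_re, Complex.sub_im, Complex.one_re, Complex.one_im] at h1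
    have h2 := norm_nonneg v
    nlinarith [mul_le_mul_of_nonneg_left (o.le.trans hα) h2, mul_le_mul_of_nonneg_right hκ h2,
      mul_le_mul_of_nonneg_right (show (1.2 : ℝ) ≤ √2 from Real.le_sqrt_of_sq_le (by norm_num)) h2]
  · obtain ⟨ε, ε0, o | o⟩ := one (S' := S₂) f
    exacts [k ε0 n₂ c₂ o, k ε0 n₁ c₁ o]
  · obtain ⟨ε, ε0, o | o⟩ := one (S' := S₁) f
    exacts [k ε0 n₁ c₁ (Set.inter_comm S₁ S₂ ▸ o), k ε0 n₂ c₂ (Set.inter_comm S₁ S₂ ▸ o)]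

theorem trZ_of {Λ : Finset (ℤ × ℤ)} {p : ℤ × ℤ} {r N : ℕ} {S : Set (ℤ × ℤ)} (hS : Cov (Lay S) N)
    (key : ∀ f, zd f p ≤ r → (f ∈ Λ ↔ f ∈ S)) : TrZ Λ p r (N + 12) := by
  refine trZ_of_cov ((hS.or (((cov_row (p.2 + r) 1).or (cov_row (p.2 - r) 1)).or
    ((cov_col (p.1 + r) 1).or (cov_col (p.1 - r) 1)))).mono
      (fun v ⟨hv, ⟨f, a1, a2⟩, f', a3, a4⟩ => ?_) le_rfl)
  by_cases h1 : zd v p + 2 ≤ r
  · have b1 := GeoA.zd_tri f v p
    have b2 := GeoA.zd_tri f' v p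
    exact Or.inl ⟨⟨f, (key f (by omega)).1 a1, a2⟩, f', fun k => a3 ((key f' (by omega)).2 k), a4⟩
  · simp only [zd] at hv h1
    refine Or.inr ?_
    omega

theorem rawC : RawC := by
  classical
  intro K hK
  have k3 : max √(max K 0 / 2) (1 / 100) < √2 / 2 := by
    have k : max K 0 < 1 := max_lt hK one_pos
    refine max_lt ?_ (by linarith [Real.one_lt_sqrt_two])
    rw [Real.sqrt_lt' (by positivity), div_pow, Real.sq_sqrt (by norm_num)]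
    linarith
  obtain ⟨N, hN⟩ := cov_lip k3
  refine ⟨N + N + 12, fun α _ hα κ _ hκ D h => ?_⟩
  obtain ⟨T, T0, hT⟩ := h.2.1.exists_pos_norm_le
  choose R R0 un S₁ S₂ ν₁ ν₂ n₁ n₂ c₁ c₂ eD hD using
    loc hα hκ (hκ.trans (le_max_right _ _)) (le_max_left _ _) k3.le h
  obtain ⟨F, ρ, ρ0, ρ1, ρ2, ρ3, hF⟩ := cover (T + 1) R R0
  refine ⟨T, T0, F.filter fun z => ¬ ConeAt D z, fun z hz => (Finset.mem_filter.1 hz).2, ρ, ρ0,
    fun a ha => ⟨disc_iff hT ha, fun x hx => (zd_le ha x).trans (hT _ ((disc_iff hT ha x).1 hx)),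
      fun r r1 hr => ?_⟩⟩
  have a1 : a ≤ a * r := le_mul_of_one_le_right ha.le (by exact_mod_cast r1)
  set G := F.filter fun z => ¬ ConeAt D z with hG
  have ht : ∀ z ∈ G, ∀ s : ℕ, 2 * a + 2 * (a * s) < R z → TipM (disc D a) α κ s (fl a z) := by
    intro z hz s hs
    obtain ⟨-, b0, b1, d₁, d₂, f₁, f₂⟩ := (hD z).resolve_left
      fun o => (Finset.mem_filter.1 hz).2 ⟨R z, R0 z, o⟩
    exact ⟨un z, _, _, ν₁ z, ν₂ z, ⟨n₁ z, n₂ z, b0, b1, epi d₁ ha _, epi d₂ ha _,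
      wall d₁ (by linarith) (n₁ z) f₁ ha, wall d₂ (by linarith) (n₂ z) f₂ ha⟩,
      fun v hv => read hT ha (eD z) (by
        linarith [norm_add_le_zd ha (fl a z) v z hv, norm_fl ha z])⟩
  refine ⟨G.image (fl a), ⟨?_, ?_, fun y => ?_⟩, fun p hp => ?_⟩
  · intro p hp p' hp' e
    obtain ⟨z, hz, rfl⟩ := Finset.mem_image.1 hp
    obtain ⟨z', hz', rfl⟩ := Finset.mem_image.1 hp'
    have h1 := ρ3 z (Finset.mem_filter.1 hz).1 z' (Finset.mem_filter.1 hz').1 fun e' => e (e' ▸ rfl)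
    have h2 := le_zd ha (fl a z - fl a z')
    rw [← zd_eq, pt_sub] at h2
    have h3 : ‖z - z'‖ ≤ ‖pt a (fl a z) - z‖ + ‖pt a (fl a z) - pt a (fl a z')‖ +
        ‖pt a (fl a z') - z'‖ := by
      rw [norm_sub_rev _ z]
      exact (norm_sub_le_norm_sub_add_norm_sub z (pt a (fl a z')) z').trans
        (add_le_add_left (norm_sub_le_norm_sub_add_norm_sub _ _ _) _)
    have h4 : a * r < a * zd (fl a z) (fl a z') := by
      linarith [norm_fl ha z, norm_fl ha z']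
    exact_mod_cast lt_of_mul_lt_mul_left h4 ha.le
  · intro p hp
    obtain ⟨z, hz, rfl⟩ := Finset.mem_image.1 hp
    exact ht z hz r (by linarith [ρ2 z (Finset.mem_filter.1 hz).1])
  · rcases le_or_gt ‖pt a y‖ (T + 1) with hy | hy
    · obtain ⟨z, hz, h1⟩ := hF _ hy
      have h2 := ρ2 z hz
      have h0 : ∀ v, zd v 0 ≤ r → ‖pt a (y + v) - z‖ < R z := fun v hv => by
        linarith [norm_add_le_zd ha y v z hv]
      obtain ⟨S, ν, n, c, e⟩ | ⟨e, -⟩ := hD z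
      · refine Or.inl ⟨⟨_, ν, n, epi c ha y, fun v hv => read hT ha e (h0 v hv)⟩,
          trZ_of (S := {v | pt a (0 + v) ∈ TwoC (un z) (S₁ z) (S₂ z)})
            (((hN _ _ (n₁ z) (epi (c₁ z) ha 0)).or (hN _ _ (n₂ z) (epi (c₂ z) ha 0))).mono
              (fun v hv => ?_) le_rfl) fun f hf => ?_⟩
        · cases o : un z <;> rw [o] at hv
          exacts [lay_inter hv, lay_union hv]
        · have := read hT ha (eD z) (h0 (f - y) (by rwa [← zd_eq]))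
          rw [add_sub_cancel] at this
          rwa [Set.mem_ofPred_eq, zero_add]
      · have hz' : z ∈ G := Finset.mem_filter.2 ⟨hz, e⟩
        refine Or.inr ⟨fl a z, Finset.mem_image_of_mem _ hz', _, le_rfl, ht z hz' _ ?_⟩
        have h3 := zd_le ha (y - fl a z)
        rw [← zd_eq, pt_sub] at h3
        have h4 := norm_sub_le_norm_sub_add_norm_sub (pt a y) z (pt a (fl a z))
        rw [norm_sub_rev z] at h4
        push_cast
        linarith [norm_fl ha z, mul_add a (zd y (fl a z) : ℝ) r]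
    · have h0 : ∀ v, zd v 0 ≤ r → y + v ∉ disc D a := fun v hv h1 => by
        have h2 := hT _ ((disc_iff hT ha _).1 h1)
        have h3 := norm_add_le_zd ha (y + v) (-v) 0 (s := r) (by
          rw [zd_eq] at hv ⊢
          simpa [zd] using hv)
        rw [add_neg_cancel_right, sub_zero, sub_zero] at h3
        linarith
      refine Or.inl ⟨⟨∅, 1, norm_one, fun _ h => h.elim, fun v hv => ⟨h0 v hv, False.elim⟩⟩,
        trZ_of (S := ∅) ((hN ∅ 1 norm_one fun _ h => h.elim).mono (fun _ h => h) (by omega))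
          fun f hf => ⟨fun o => h0 (f - y) (by rwa [← zd_eq]) (by rwa [add_sub_cancel]),
            False.elim⟩⟩
  · obtain ⟨z, hz, rfl⟩ := Finset.mem_image.1 hp
    exact ⟨z, hz, show ‖pt a (fl a z) - z‖ ≤ 10 * a by linarith [norm_fl ha z]⟩

end Vale.Agent.P144B
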