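import Vale.Agent.P144B.Defs
import Vale.Agent.P144C.G.Mod
import Vale.Agent.P144U.Far.Far
import Vale.Agent.P144U.RgZ.Main

/-!
The shape of the dug sets.
-/

namespace Vale.Agent.P144B

open Finset Vale.Agent.P144Z Vale.Agent.P144L Vale.Agent.P144C P144L.G
open Vale.Agent.P144Z.GeoA (Rch zd_tri zd_comm)

namespace Sh

/-- A good local model. -/
structure Gd (D : Set (ℤ × ℤ)) (N ρ : ℕ) : Prop where
  conn : ∀ s f f', zd f 0 ≤ s → zd f' 0 ≤ s → f ∉ D → f' ∉ D →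
    Rch (fun v => v ∉ D ∧ zd v 0 ≤ N * (s + 1)) f f'
  cork : (0 : ℤ × ℤ) ∉ D → ∀ s, ∃ x, zd x 0 ≤ N * (s + 1) ∧ ∀ g, zd g x ≤ s → g ∉ D
  cov : ICg.Cov (fun v => zd v 0 ≤ ρ ∧ B5a2.Lay D v) N

theorem rgh_loc {M : ℕ} [NeZero M] {I : Finset (Tor M)} {N ρ R : ℕ} (hN : 1 ≤ N)
    (hR : 2 * ρ + 2 ≤ R) (h : ∀ y, ∃ D, Gd D N ρ ∧ ∀ v, zd v 0 ≤ R → (y + prj M v ∈ I ↔ v ∈ D)) :
    Rgh I N ρ := by
  refine ⟨fun y s hs f f' hf hf' hI hI' => ?_, fun f hf s hs => ?_, fun y => ?_⟩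
  · obtain ⟨D, g, c⟩ := h y
    have l1 : s + 1 ≤ N * (s + 1) := Nat.le_mul_of_pos_left _ hN
    rw [← GeoA.zd_lft] at hf hf'
    have o : ∀ g, zd (lft (g - y)) 0 ≤ s → g ∉ I → lft (g - y) ∉ D := fun g hg k o =>
      k (G.add_prj_lft g y ▸ (c _ (by omega)).2 o)
    have p4 := g.conn s _ _ hf hf' (o f hf hI) (o f' hf' hI')
    generalize N * (s + 1) = n at *
    rw [← G.add_prj_lft f y, ← G.add_prj_lft f' y]
    refine Relation.ReflTransGen.lift (fun x => y + prj M x) ?_ _ _ p4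
    rintro u w ⟨q1, q2, q3⟩
    refine ⟨(GeoA.tdist_le_zd y u).trans q1.2, (GeoA.tdist_le_zd y w).trans q2.2,
      fun k => q1.1 ((c u (by omega)).1 k), fun k => q2.1 ((c w (by omega)).1 k), ?_⟩
    beta_reduce
    rcases q3 with rfl | rfl | rfl | rfl
    · exact ⟨0, Or.inl (by rw [G.prj_add, G.uv_zero, add_assoc])⟩
    · exact ⟨1, Or.inl (by rw [G.prj_add, G.uv_one, add_assoc])⟩
    · exact ⟨0, Or.inr (by simp [uv, prj, add_assoc])⟩
    · exact ⟨1, Or.inr (by simp [uv, prj, add_assoc])⟩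
  · obtain ⟨D, g, c⟩ := h f
    have l1 : s + 1 ≤ N * (s + 1) := Nat.le_mul_of_pos_left _ hN
    obtain ⟨x, x1, x2⟩ := g.cork (fun o => hf (by
      simpa [G.prj_zero] using (c 0 (by simp [zd])).2 o)) s
    refine ⟨f + prj M x, (GeoA.tdist_le_zd _ _).trans x1, fun w hw k => ?_⟩
    obtain ⟨u, u1, -, u2⟩ := near_in c (by omega) hw
    exact x2 u u1 (u2.1 k)
  · obtain ⟨D, g, c⟩ := h y
    obtain ⟨H, V, h1, h2⟩ := g.cov
    refine ⟨univ.filter fun x => (lft (x - y)).1 ∈ H (lft (x - y)).2,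
      univ.filter fun x => (lft (x - y)).2 ∈ V (lft (x - y)).1,
      fun x hx ⟨⟨f, f1, f2⟩, f', f3, f4⟩ => ?_, fun t => ?_, fun t => ?_⟩
    · rw [← GeoA.zd_lft] at hx
      rw [← G.add_prj_lft x y] at f2 f4
      obtain ⟨u, u1, -, u2⟩ := near_in c (by omega) f2
      obtain ⟨u', u3, -, u4⟩ := near_in c (by omega) f4
      simp only [mem_filter, mem_univ, true_and]
      exact h2 _ ⟨hx, ⟨u, u2.1 f1, u1⟩, u', fun k => f3 (u4.2 k), u3⟩
    · refine (card_le_card_of_injOn (t := H (t - y.2).valMinAbs) (fun x => (lft (x - y)).1)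
        (fun x hx => ?_) fun x hx x' hx' e => ?_).trans (h1 _).1
      · simp only [coe_filter, mem_filter, mem_univ, true_and, Set.mem_ofPred_eq] at hx
        exact hx.2 ▸ hx.1
      · simp only [coe_filter, Set.mem_ofPred_eq] at hx hx'
        exact Prod.ext (sub_left_injective (ZMod.valMinAbs_inj.1 e)) (hx.2.trans hx'.2.symm)
    · refine (card_le_card_of_injOn (t := V (t - y.1).valMinAbs) (fun x => (lft (x - y)).2)
        (fun x hx => ?_) fun x hx x' hx' e => ?_).trans (h1 _).2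
      · simp only [coe_filter, mem_filter, mem_univ, true_and, Set.mem_ofPred_eq] at hx
        exact hx.2 ▸ hx.1
      · simp only [coe_filter, Set.mem_ofPred_eq] at hx hx'
        exact Prod.ext (hx.2.trans hx'.2.symm) (sub_left_injective (ZMod.valMinAbs_inj.1 e))

theorem gd_lip {S : Set (ℤ × ℤ)} {ν : ℂ} (hν : ‖ν‖ = 1) (hS : Epi S ν (√2 / 2))
    {Λ : Finset (ℤ × ℤ)} {y : ℤ × ℤ} {r N₀ N ρ : ℕ} (hT : TrZ Λ y r N₀)
    (h : ∀ v, zd v 0 ≤ r → (y + v ∈ Λ ↔ v ∈ S)) (hρ : ρ + 2 ≤ r) (h1 : 40 ≤ N) (h2 : N₀ ≤ N) :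
    Gd S N ρ := by
  have a' : ‖-ν‖ = 1 := by rwa [norm_neg]
  have l1 : ∀ s, 40 * (s + 1) ≤ N * (s + 1) := fun s => Nat.mul_le_mul_right _ h1
  refine ⟨fun s f f' a1 a2 a3 a4 => ?_, fun h0 s => ?_, ?_⟩
  · have l2 := l1 s
    have t1 := zd_tri f' 0 f
    rw [zd_comm 0] at t1
    refine rch_mono (fun x hx => ⟨hx.1, ?_⟩) (rch_epi (s := 2 * s) a' (epi_compl hS) a3 a4 (by omega))
    have := zd_tri x f 0
    omega
  · have l2 := l1 s
    refine ⟨rd (-ν) (9 * (s + 1)), (zd_rd a' _).trans (by omega), fun g hg => ?_⟩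
    have := epi_compl hS 0 h0 _ (cn_rd a' le_rfl (zd_sub _ _ ▸ hg))
    rwa [zero_add, add_sub_cancel] at this
  · obtain ⟨H, V, a, b, c⟩ := hT
    refine ⟨fun t => (H.filter fun v => v.2 = y.2 + t).image fun v => v.1 - y.1,
      fun t => (V.filter fun v => v.1 = y.1 + t).image fun v => v.2 - y.2,
      fun t => ⟨card_image_le.trans ((b _).trans h2), card_image_le.trans ((c _).trans h2)⟩,
      fun v ⟨hv, ⟨f, f1, f2⟩, g, g1, g2⟩ => ?_⟩
    have t1 := zd_tri f v 0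
    have t2 := zd_tri g v 0
    have e : ∀ u, zd (y + u) (y + v) = zd u v := fun u => by simp [zd]
    refine (a (y + v) (by rw [zd_add_left]; omega) ⟨_, (h f (by omega)).2 f1, by rwa [e]⟩
      ⟨_, fun k => g1 ((h g (by omega)).1 k), by rwa [e]⟩).imp (fun k => ?_) fun k => ?_
    · exact mem_image.2 ⟨_, mem_filter.2 ⟨k, rfl⟩, by simp⟩
    · exact mem_image.2 ⟨_, mem_filter.2 ⟨k, rfl⟩, by simp⟩

theorem rch_shift {P : ℤ × ℤ → Prop} (c : ℤ × ℤ) {a b : ℤ × ℤ} (h : Rch P (c + a) (c + b)) :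
    Rch (fun v => P (c + v)) a b := by
  rw [← add_sub_cancel_left c a, ← add_sub_cancel_left c b]
  refine Relation.ReflTransGen.lift (fun x => x - c) ?_ _ _ h
  rintro u w ⟨q1, q2, q3⟩
  refine ⟨by simpa using q1, by simpa using q2, ?_⟩
  simp only [← add_sub_right_comm, sub_left_inj]
  exact q3

theorem cov_tip {S₁ S₂ : Set (ℤ × ℤ)} {ν₁ ν₂ : ℂ} {α κ : ℝ} (h : TipS S₁ S₂ ν₁ ν₂ α κ)
    (hκ : κ ≤ 1 / 8) (un : Bool) (t : ℕ) (y : ℤ × ℤ) :
    ICg.Cov (B5a2.Lay {v | y + v ∈ DugU un S₁ S₂ 0 t}) (19 + (19 + (2 * (t + 2) + 1))) := by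
  refine ((ICg.cov_epi h.n₁ (GeoA.epi_mono h.e₁ hκ) (-y)).or ((ICg.cov_epi h.n₂
    (GeoA.epi_mono h.e₂ hκ) (-y)).or (ICg.cov_row (-y.2) (t + 2)))).mono
      (fun v ⟨⟨f, f1, f2⟩, g, g1, g2⟩ => ?_) le_rfl
  have e : ∀ u, zd (y + u) (v - -y) = zd u v := fun u => by
    simp only [zd, Prod.fst_add, Prod.snd_add, Prod.fst_sub, Prod.snd_sub, Prod.fst_neg,
      Prod.snd_neg]
    omega
  by_cases k : t < zd (y + g) 0
  · have g3 : y + g ∉ P144Z.Two un S₁ S₂ := fun o => g1 ⟨o, k⟩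
    have f3 := f1.1
    rw [← e] at f2 g2
    cases un
    · by_cases k' : y + g ∈ S₁
      · exact Or.inr (Or.inl ⟨⟨_, f3.2, f2⟩, _, fun o => g3 ⟨k', o⟩, g2⟩)
      · exact Or.inl ⟨⟨_, f3.1, f2⟩, _, k', g2⟩
    · rcases f3 with o | o
      · exact Or.inl ⟨⟨_, o, f2⟩, _, fun o => g3 (Or.inl o), g2⟩
      · exact Or.inr (Or.inl ⟨⟨_, o, f2⟩, _, fun o => g3 (Or.inr o), g2⟩)
  · refine Or.inr (Or.inr ?_)
    simp only [zd, Prod.fst_add, Prod.snd_add, Prod.fst_zero, Prod.snd_zero] at k g2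
    omega

theorem chart {Λ P : Finset (ℤ × ℤ)} {α κ : ℝ} {N₀ r t R : ℕ} (h : RawM Λ P α κ N₀ r)
    (hR : 2 * R + 2 * t ≤ r) (y : ℤ × ℤ) :
    (∃ S ν, ‖ν‖ = 1 ∧ Epi S ν (√2 / 2) ∧ TrZ Λ y r N₀ ∧
      (∀ v, zd v 0 ≤ r → (y + v ∈ Λ ↔ v ∈ S)) ∧ ∀ v, zd v 0 ≤ R → (y + v ∈ dig Λ P t ↔ v ∈ S)) ∨
    ∃ p ∈ P, ∃ un S₁ S₂ ν₁ ν₂, TipS S₁ S₂ ν₁ ν₂ α κ ∧
      ∀ v, zd v 0 ≤ R → (y + v ∈ dig Λ P t ↔ y - p + v ∈ DugU un S₁ S₂ 0 t) := by
  have e : ∀ p v, zd (y - p + v) 0 = zd (y + v) p := fun p v => by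
    rw [zd_sub (y + v), add_sub_right_comm]
  have e' : ∀ p v, p + (y - p + v) = y + v := fun p v => by abel
  have tr : ∀ p v, zd (y + v) p ≤ zd v 0 + zd y p ∧ zd y p ≤ zd v 0 + zd (y + v) p := fun p v => by
    have a1 := zd_tri (y + v) y p
    have a2 := zd_tri y (y + v) p
    rw [zd_comm y (y + v)] at a2
    rw [zd_add_left] at a1 a2
    omega
  by_cases c : ∃ p ∈ P, zd y p ≤ R + t
  · obtain ⟨p, hp, c⟩ := c
    obtain ⟨un, S₁, S₂, ν₁, ν₂, a1, a2⟩ := h.tip p hp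
    refine Or.inr ⟨p, hp, un, S₁, S₂, ν₁, ν₂, a1, fun v hv => ?_⟩
    have b1 := tr p v
    have b2 := a2 (y - p + v) (by rw [e]; omega)
    rw [e'] at b2
    rw [mem_dig, b2]
    refine and_congr_right fun _ => ⟨fun k => e p v ▸ k p hp, fun k p' hp' => ?_⟩
    by_cases o : p = p'
    · rwa [← o, ← e]
    · have b3 := h.sep p hp p' hp' o
      have b4 := zd_tri p (y + v) p'
      rw [zd_comm p (y + v)] at b4
      omega
  · push Not at c
    have far : ∀ v, zd v 0 ≤ R → ∀ p ∈ P, t < zd (y + v) p := fun v hv p hp => by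
      have := c p hp
      have := tr p v
      omega
    rcases h.chart y with ⟨⟨S, ν, a1, a2, a3⟩, a4⟩ | ⟨p, hp, ρ, hρ, un, S₁, S₂, ν₁, ν₂, a1, a2⟩
    · exact Or.inl ⟨S, ν, a1, a2, a4, a3, fun v hv => by
        rw [mem_dig, a3 v (by omega), and_iff_left (far v hv)]⟩
    · refine Or.inr ⟨p, hp, un, S₁, S₂, ν₁, ν₂, a1, fun v hv => ?_⟩
      have b1 := tr p v
      have b2 := a2 (y - p + v) (by rw [e]; omega)
      rw [e'] at b2
      rw [mem_dig, b2, and_iff_left (far v hv)]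
      exact (and_iff_left (e p v ▸ far v hv p hp)).symm

end Sh

open Sh in
theorem shM : ShM := by
  intro N₀ α hα
  obtain ⟨t₀, κ₁, hκ₁, hZ⟩ := rghZ α hα
  obtain ⟨N₂, κ₂, hκ₂, hF⟩ := farU α hα
  obtain ⟨t, ht⟩ : ∃ t, t = t₀ + 1 := ⟨_, rfl⟩
  obtain ⟨N₁, hZ⟩ := hZ t (by omega)
  obtain ⟨N, hN⟩ : ∃ N, N = N₀ + N₁ + N₂ + 2 * t + 50 := ⟨_, rfl⟩
  refine ⟨min κ₁ (min κ₂ (1 / 8)), by positivity, t, N, 16 * t, by omega, by omega,
    fun κ k0 hκ Λ P r T h hr hΛ => ?_⟩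
  simp only [le_min_iff] at hκ
  obtain ⟨k1, k2, k3⟩ := hκ
  replace hZ := hZ κ k0.le k1
  have p1 : ∀ p ∈ P, zd p 0 ≤ T + t ∧ ∃ v, v ∉ Λ ∧ zd v p ≤ t := fun p hp => by
    obtain ⟨un, S₁, S₂, ν₁, ν₂, a1, a2⟩ := h.tip p hp
    obtain ⟨⟨v, v1, v2⟩, ⟨w, w1, w2⟩, -⟩ := hZ un _ _ _ _ a1
    have b1 := hΛ _ ((a2 w (by omega)).2 w2)
    have b2 := zd_tri p (p + w) 0
    rw [zd_comm p (p + w), zd_add_left] at b2
    exact ⟨by omega, p + v, fun k => v2 ((a2 v (by omega)).1 k), by rw [zd_add_left]; omega⟩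
  refine ⟨p1, fun M _ hM => ?_⟩
  have d1 : r / (16 * t) ≤ r / 16 := Nat.div_le_div_left (by omega) (by norm_num)
  generalize r / (16 * t) = ρ at d1
  have ch := fun (y : Tor M) v hv => G.img_chart (X := dig Λ P t) (r := r)
    (fun v hv => hΛ v (mem_dig.1 hv).1) hM y (v := v) hv
  have l1 : ∀ s, N₁ * (s + 1) ≤ N * (s + 1) := fun s => Nat.mul_le_mul_right _ (by omega)
  refine ⟨rgh_loc (R := r / 4) (by omega) (by omega) fun y => ?_, fun x hx x' hx' e => ?_,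
    fun y σ hσ hy => ?_⟩
  · rcases chart h (R := r / 4) (t := t) (by omega) (lft y) with
      ⟨S, ν, a1, a2, a3, a4, a5⟩ | ⟨p, -, un, S₁, S₂, ν₁, ν₂, a1, a2⟩
    · exact ⟨S, gd_lip a1 a2 a3 a4 (by omega) (by omega) (by omega),
        fun v hv => (ch y v (by omega)).trans (a5 v hv)⟩
    · obtain ⟨b1, b2⟩ := (hZ un _ _ _ _ a1).2.2 0 (by simp [zd])
      refine ⟨{v | lft y - p + v ∈ DugU un S₁ S₂ 0 t}, ⟨fun s f f' c1 c2 c3 c4 => ?_,
        fun c s => ?_, (cov_tip a1 k3 un t _).mono (fun _ k => k.2) (by omega)⟩,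
        fun v hv => (ch y v (by omega)).trans (a2 v hv)⟩
      · refine rch_mono (fun x k => ⟨k.1, ?_⟩) (rch_shift _ (b2 (lft y - p) _ _ s
          (by rwa [zd_add_left]) (by rwa [zd_add_left]) c3 c4))
        have := k.2
        rw [zd_add_left] at this
        exact this.trans (l1 s)
      · obtain ⟨x, x1, x2⟩ := b1 _ s c
        rw [add_zero] at x1
        refine ⟨x - (lft y - p), (zd_sub x _ ▸ x1).trans (l1 s), fun g hg => x2 _ ?_⟩
        rwa [zd_sub, show g - (x - (lft y - p)) = lft y - p + g - x by abel, ← zd_sub] at hg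
  · obtain ⟨p, hp, rfl⟩ := mem_image.1 hx
    obtain ⟨p', hp', rfl⟩ := mem_image.1 hx'
    have a1 := h.sep p hp p' hp' fun k => e (k ▸ rfl)
    have a2 := (p1 p hp).1
    have a3 := (p1 p' hp').1
    rw [← GeoA.zd_lft, ← G.prj_sub, lft_prj, ← zd_sub]
    · omega
    all_goals
      simp only [zd, Prod.fst_zero, Prod.snd_zero, sub_zero, max_le_iff, Prod.fst_sub,
        Prod.snd_sub, Int.abs_eq_natAbs] at a2 a3 ⊢
      omega
  · rcases chart h (R := r / 4) (t := t) (by omega) (lft y) with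
      ⟨S, ν, a1, a2, -, -, a5⟩ | ⟨p, hp, un, S₁, S₂, ν₁, ν₂, a1, a2⟩
    · exact ⟨S, ν, a1, a2, fun v hv => (ch y v (by omega)).trans (a5 v (by omega))⟩
    · have b1 := hy _ (mem_image_of_mem _ hp)
      have b2 := tdist_prj_le (M := M) (lft y) p
      rw [prj_lft] at b2
      have b3 : N * (σ + 1) ≤ zd (lft y - p) 0 := zd_sub (lft y) p ▸ b1.trans b2
      obtain ⟨S, ν, c1, c2, -, c3⟩ := hF κ k0.le k2 un _ _ _ _ a1 (lft y - p) σ
        ((Nat.mul_le_mul_right _ (by omega)).trans b3)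
      refine ⟨S, ν, by rcases c1 with rfl | rfl; exacts [a1.n₁, a1.n₂],
        GeoA.epi_mono c2 (by linarith [s2_ge]), fun v hv => ((ch y v (by omega)).trans
          (a2 v (by omega))).trans ((and_iff_left ?_).trans (c3 v hv))⟩
      have b4 := B1b.zd_sub (lft y - p + v) v
      have b5 : (t + 1) * (σ + 1) ≤ N * (σ + 1) := Nat.mul_le_mul_right _ (by omega)
      rw [add_sub_cancel_right] at b4
      nlinarith [Nat.zero_le (t * σ)]

end Vale.Agent.P144B
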