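import Vale.Agent.P144C.All
import Vale.Agent.P144B.Dom
import Vale.Agent.P144B.DeepM
import Vale.Agent.P144B.GeoM
import Vale.Agent.P144B.PwC
import Vale.Agent.P144B.RawC
import Vale.Agent.P144B.ShM

/-!
Universality for the mixed class.
-/

namespace Vale.Agent.P144B

open Vale.Agent.P144 Vale.Agent.P144Z U2D AN Vale.Agent.P144L P144L.F Vale.Agent.P144C

theorem domM {K : ℝ} (hK : K < 1) : DomM K :=
  domM_of (genA_of_wt wtS) (digU_of (chStmt_of shiftU) (smallW_of (smallU_of farU))
    (uniW_of farU connOr winAnd rghZ) rghZ) clsU P144L.G.rawL P144L.G.torL P144L.G.rghL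
    P144L.G.deepL bdL genA2 P144C.latK P144C.P.pwM (geoL2 P144C.G.markM) (geoT2 P144C.G.markM)
    rawC pwC (geoM shM deepM P144C.G.markM bdP) hK

end Vale.Agent.P144B
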