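import Vale.Agent.P144B.Defs
import Vale.Agent.P144U.Raw.Main
import Vale.Agent.P144C.GeoL2

/-!
The discretisation of the domains of the mixed class.
-/

namespace Vale.Agent.P144B.R9

open Vale.Agent.P144 Vale.Agent.P144Z Vale.Agent.P144C B6a B5a2 ICg Ge4 RawA Metric

theorem trZ_cov {Λ : Finset (ℤ × ℤ)} {p : ℤ × ℤ} {r N : ℕ} {X : Set (ℤ × ℤ)}
    (hX : Cov (Lay X) N) (key : ∀ f, zd f p ≤ r → (f ∈ Λ ↔ f ∈ X)) : TrZ Λ p r (N + 12) := by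
  refine trZ_of_cov ((hX.or (((cov_row (p.2 + r) 1).or
    (cov_row (p.2 - r) 1)).or ((cov_col (p.1 + r) 1).or (cov_col (p.1 - r) 1)))).mono
      (fun v ⟨hv, ⟨f, a1, a2⟩, f', a3, a4⟩ => ?_) le_rfl)
  by_cases h1 : zd v p + 2 ≤ r
  · have b1 := GeoA.zd_tri f v p
    have b2 := GeoA.zd_tri f' v p
    exact Or.inl ⟨⟨f, (key f (by omega)).1 a1, a2⟩, f', fun k => a3 ((key f' (by omega)).2 k), a4⟩
  · simp only [zd] at hv h1
    refine Or.inr ?_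
    omega

theorem epi0 {S : Set ℂ} {ν : ℂ} {κ a : ℝ} (h : Cone S ν κ) (ha : 0 < a) :
    Epi {v | pt a v ∈ S} ν κ := by
  simpa only [zero_add] using epi h ha 0

/-- The boundary layers of the discretisations are thin. -/
def Thin (N : ℕ) (E : Set ℂ) : Prop := ∀ a > (0 : ℝ), Cov (Lay {v | pt a v ∈ E}) N

/-- A chart of slope one with a thin boundary layer. -/
def Good (N : ℕ) (D : Set ℂ) (z : ℂ) (R : ℝ) : Prop :=
  ∃ (S E : Set ℂ) (ν : ℂ), ‖ν‖ = 1 ∧ Cone S ν (√2 / 2) ∧ D ∩ ball z R = S ∩ ball z R ∧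
    Thin N E ∧ D ∩ ball z R = E ∩ ball z R

theorem Good.lat {N r : ℕ} {D : Set ℂ} {z : ℂ} {R T a : ℝ} {y : ℤ × ℤ} (h : Good N D z R)
    (hT : ∀ z ∈ D, ‖z‖ ≤ T) (ha : 0 < a) (hy : ‖pt a y - z‖ + 2 * (a * r) < R) :
    LipAtZ (disc D a) r y ∧ TrZ (disc D a) y r (N + 12) := by
  obtain ⟨S, E, ν, n, c, e, t, e'⟩ := h
  refine ⟨⟨_, ν, n, epi c ha y, fun v hv => read hT ha e ?_⟩,
    trZ_cov (t a ha) fun f hf => read hT ha e' ?_⟩
  · linarith [norm_add_le_zd ha y v z hv]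
  · have := norm_add_le_zd ha y (f - y) z (s := r) (by rwa [← zd_eq])
    rw [add_sub_cancel] at this
    linarith

theorem thin_two {S₁ S₂ : Set ℂ} {ν₁ ν₂ : ℂ} {κ : ℝ} (hκ : κ ≤ 1 / 8) (n₁ : ‖ν₁‖ = 1)
    (n₂ : ‖ν₂‖ = 1) (c₁ : Cone S₁ ν₁ κ) (c₂ : Cone S₂ ν₂ κ) {N : ℕ} (hN : 38 ≤ N) :
    Thin N (S₁ ∩ S₂) ∧ Thin N (S₁ ∪ S₂) := by
  have k := fun a ha => (P144C.cov_epi n₁ (epi0 (a := a) (Cone.mono c₁ hκ) ha)).or
    (P144C.cov_epi n₂ (epi0 (Cone.mono c₂ hκ) ha))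
  exact ⟨fun a ha => (k a ha).mono (fun v hv => lay_inter hv) hN,
    fun a ha => (k a ha).mono (fun v hv => lay_union hv) hN⟩

theorem res {D E : Set ℂ} {z : ℂ} {r r' : ℝ} (e : D ∩ ball z r = E ∩ ball z r) (h : r' ≤ r) :
    D ∩ ball z r' = E ∩ ball z r' := Set.ext fun w => and_congr_left fun hw => by
  simpa only [Set.mem_inter_iff, ball_subset_ball h hw, and_true] using Set.ext_iff.1 e w

theorem cone_graph {K : ℝ} {u : ℂ} (hu : ‖u‖ = 1) {g : ℝ → ℝ}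
    (hg : ∀ s t, |g s - g t| ≤ K * |s - t|) :
    Cone {w | g (u * w).re < (u * w).im} ⟨u.im, u.re⟩ √(max K 0 / 2) := fun w hw v hv => by
  have h1 : ‖v‖ ^ 2 = (u * v).re * (u * v).re + (u * v).im * (u * v).im := by
    rw [← Complex.normSq_apply, ← Complex.sq_norm, norm_mul, hu, one_mul]
  have h2 := (abs_le.1 (hg ((u * w).re + (u * v).re) (u * w).re)).2
  have h4 : (u * v).im = v.re * u.im + v.im * u.re := by rw [Complex.mul_im]; ring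
  rw [add_sub_cancel_left] at h2
  change g (u * w).re < (u * w).im at hw
  change √(max K 0 / 2) * ‖v‖ ≤ v.re * u.im + v.im * u.re at hv
  change g (u * (w + v)).re < (u * (w + v)).im
  rw [mul_add, Complex.add_re, Complex.add_im]
  rw [← h4] at hv
  have k0 : 0 ≤ max K 0 := le_max_right _ _
  have h5 : 0 ≤ (u * v).im := le_trans (by positivity) hv
  have h6 : max K 0 * |(u * v).re| ≤ (u * v).im := by
    refine (abs_le_of_sq_le_sq' ?_ h5).2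
    have h7 := pow_le_pow_left₀ (by positivity) hv 2
    rw [mul_pow, h1, Real.sq_sqrt (by positivity)] at h7
    rw [mul_pow, sq_abs]
    nlinarith [mul_le_mul_of_nonneg_left h7 k0,
      mul_nonneg (sq_nonneg (max K 0 - 1)) (sq_nonneg (u * v).im)]
  have h8 := mul_le_mul_of_nonneg_right (le_max_left K 0) (abs_nonneg (u * v).re)
  linarith

theorem s2 : (7 / 10 : ℝ) ≤ √2 / 2 := by
  have : (7 / 5 : ℝ) ≤ √2 := Real.le_sqrt_of_sq_le (by norm_num)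
  linarith

/-- Two walls with close normals give a chart. -/
theorem cone_close {S₁ S₂ : Set ℂ} {ν₁ ν₂ : ℂ} {κ : ℝ} (hκ : κ ≤ 1 / 100) (c₁ : Cone S₁ ν₁ κ)
    (c₂ : Cone S₂ ν₂ κ) (h : ‖ν₁ - ν₂‖ ≤ 1 / 2) : Cone (S₁ ∩ S₂) ν₁ (√2 / 2) := fun w hw v hv => by
  have h0 := norm_nonneg v
  have h1 := mul_le_mul_of_nonneg_right s2 h0
  have h2 := mul_le_mul_of_nonneg_right hκ h0
  refine ⟨c₁ w hw.1 v (by linarith), c₂ w hw.2 v ?_⟩
  have h3 : v.re * (ν₁ - ν₂).re + v.im * (ν₁ - ν₂).im ≤ ‖v‖ * ‖ν₁ - ν₂‖ := by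
    refine (abs_le_of_sq_le_sq' ?_ (by positivity)).2
    rw [mul_pow, Complex.sq_norm, Complex.sq_norm, Complex.normSq_apply, Complex.normSq_apply]
    nlinarith [sq_nonneg (v.re * (ν₁ - ν₂).im - v.im * (ν₁ - ν₂).re)]
  have h4 := mul_le_mul_of_nonneg_left h h0
  rw [Complex.sub_re, Complex.sub_im] at h3
  linarith

/-- The data of a tip. -/
def Tp (α κ : ℝ) (D : Set ℂ) (z : ℂ) (R : ℝ) : Prop :=
  ∃ (un : Bool) (S₁ S₂ : Set ℂ) (ν₁ ν₂ : ℂ), ‖ν₁‖ = 1 ∧ ‖ν₂‖ = 1 ∧ Cone S₁ ν₁ κ ∧ Cone S₂ ν₂ κ ∧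
    α ≤ ‖ν₁ + ν₂‖ ∧ α ≤ ‖ν₁ - ν₂‖ ∧ z ∈ frontier S₁ ∧ z ∈ frontier S₂ ∧
      D ∩ ball z R = TwoC un S₁ S₂ ∩ ball z R

theorem Tp.lat {α κ R T a : ℝ} {D : Set ℂ} {z : ℂ} (h : Tp α κ D z R) (hκ : κ ≤ 1 / 10)
    (hT : ∀ z ∈ D, ‖z‖ ≤ T) (ha : 0 < a) {s : ℕ} (hs : 2 * a + 2 * (a * s) < R) :
    TipM (disc D a) α κ s (fl a z) := by
  obtain ⟨un, S₁, S₂, ν₁, ν₂, n₁, n₂, c₁, c₂, h1, h2, f₁, f₂, e⟩ := h
  exact ⟨un, _, _, ν₁, ν₂, ⟨n₁, n₂, h1, h2, epi c₁ ha _, epi c₂ ha _, wall c₁ hκ n₁ f₁ ha,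
    wall c₂ hκ n₂ f₂ ha⟩, fun v hv => read hT ha e (by
      linarith [norm_add_le_zd ha (fl a z) v z hv, norm_fl ha z])⟩

theorem corner {α κ : ℝ} {D : Set ℂ} {z : ℂ} {N : ℕ} (hα : α ≤ 1 / 2) (hκ : κ ≤ 1 / 100)
    (hN : 38 ≤ N) (h : CornerK α κ D z) :
    ∃ R > (0 : ℝ), Good N D z R ∨ ¬ ConeAt D z ∧ Tp α κ D z R := by
  obtain ⟨r, r0, S₁, S₂, ν₁, ν₂, n₁, n₂, h1, c₁, c₂, e⟩ := h
  by_cases c : ConeAt D z
  · obtain ⟨r', r1, S, ν, n, c, e'⟩ := c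
    obtain ⟨t1, t2⟩ := thin_two (by linarith) n₁ n₂ c₁ c₂ hN
    refine ⟨min r r', lt_min r0 r1, Or.inl ?_⟩
    rcases e with e | ⟨-, -, -, e⟩
    · exact ⟨S, _, ν, n, c, res e' (min_le_right _ _), t1, res e (min_le_left _ _)⟩
    · exact ⟨S, _, ν, n, c, res e' (min_le_right _ _), t2, res e (min_le_left _ _)⟩
  refine ⟨r, r0, Or.inr ⟨c, ?_⟩⟩
  rcases e with e | ⟨b1, b2, b3, e⟩
  swap
  · exact ⟨true, S₁, S₂, ν₁, ν₂, n₁, n₂, c₁, c₂, h1, b1, b2, b3, e⟩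
  have k : ∀ {S : Set ℂ} {ν : ℂ} {ε : ℝ}, 0 < ε → ‖ν‖ = 1 → Cone S ν κ →
      ¬ ∀ w ∈ ball z ε, w ∈ S₁ ∩ S₂ ↔ w ∈ S := fun {S ν ε} ε0 n c' o =>
    c ⟨min r ε, lt_min r0 ε0, S, ν, n, Cone.mono c' (by linarith [s2]), by
      simpa only [Set.inter_self] using shrink e o⟩
  refine ⟨false, S₁, S₂, ν₁, ν₂, n₁, n₂, c₁, c₂, h1, ?_, ?_, ?_, e⟩
  · by_contra o
    exact c ⟨r, r0, _, ν₁, n₁, cone_close hκ c₁ c₂ (by linarith [not_le.1 o]), e⟩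
  · by_contra f₁
    obtain ⟨ε, ε0, o | o⟩ := one (S' := S₂) f₁
    exacts [k ε0 n₂ c₂ o, k ε0 n₁ c₁ o]
  · by_contra f₂
    obtain ⟨ε, ε0, o | o⟩ := one (S' := S₁) f₂
    exacts [k ε0 n₁ c₁ (Set.inter_comm S₁ S₂ ▸ o), k ε0 n₂ c₂ (Set.inter_comm S₁ S₂ ▸ o)]

theorem rawC : RawC := by
  classical
  intro K hK
  have k0 : √(max K 0 / 2) < √2 / 2 := by
    have k : max K 0 < 1 := max_lt hK one_pos
    rw [Real.sqrt_lt' (by positivity), div_pow, Real.sq_sqrt (by norm_num)]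
    linarith
  obtain ⟨N, hN⟩ := cov_lip k0
  refine ⟨N + 38 + 12, fun α _ hα κ _ hκ D ⟨_, hb, h⟩ => ?_⟩
  obtain ⟨T, T0, hT⟩ := hb.exists_pos_norm_le
  have cl : ∀ z, ∃ R > (0 : ℝ), Good (N + 38) D z R ∨ ¬ ConeAt D z ∧ Tp α κ D z R := fun z => by
    rcases h z with h | ⟨r, r0, u, hu, g, hg, hD⟩
    · exact corner hα hκ (by omega) h
    have n : ‖(⟨u.im, u.re⟩ : ℂ)‖ = 1 := by
      rw [← hu, Complex.norm_eq_sqrt_sq_add_sq, Complex.norm_eq_sqrt_sq_add_sq, add_comm]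
    have e : D ∩ ball z r = {w | g (u * w).re < (u * w).im} ∩ ball z r :=
      Set.ext fun w => and_congr_left (hD w)
    exact ⟨r, r0, Or.inl ⟨_, _, _, n, Cone.mono (cone_graph hu hg) k0.le, e,
      fun a ha => (hN _ _ n (epi0 (cone_graph hu hg) ha)).mono (fun _ k => k) (by omega), e⟩⟩
  choose R R0 hD using cl
  obtain ⟨F, ρ, ρ0, ρ1, ρ2, ρ3, hF⟩ := cover (T + 1) R R0
  obtain ⟨G, hG⟩ : ∃ G : Finset ℂ, ∀ z, z ∈ G ↔ z ∈ F ∧ ¬ Good (N + 38) D z (R z) :=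
    ⟨F.filter _, fun _ => Finset.mem_filter⟩
  have hG' := fun z (hz : z ∈ G) => (hD z).resolve_left ((hG z).1 hz).2
  refine ⟨T, T0, G, fun z hz => (hG' z hz).1, ρ, ρ0, fun a ha => ⟨disc_iff hT ha,
    fun x hx => (zd_le ha x).trans (hT _ ((disc_iff hT ha x).1 hx)), fun r r1 hr => ?_⟩⟩
  have a1 : a ≤ a * r := le_mul_of_one_le_right ha.le (by exact_mod_cast r1)
  have ht : ∀ z ∈ G, ∀ s : ℕ, 2 * a + 2 * (a * s) < R z → TipM (disc D a) α κ s (fl a z) :=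
    fun z hz s hs => (hG' z hz).2.lat (by linarith) hT ha hs
  refine ⟨G.image (fl a), ⟨?_, ?_, fun y => ?_⟩, fun p hp => ?_⟩
  · intro p hp p' hp' e
    obtain ⟨z, hz, rfl⟩ := Finset.mem_image.1 hp
    obtain ⟨z', hz', rfl⟩ := Finset.mem_image.1 hp'
    have h1 := ρ3 z ((hG z).1 hz).1 z' ((hG z').1 hz').1 fun e' => e (e' ▸ rfl)
    have h2 := le_zd ha (fl a z - fl a z')
    rw [← zd_eq, pt_sub] at h2
    have h3 : ‖z - z'‖ ≤ ‖pt a (fl a z) - z‖ + ‖pt a (fl a z) - pt a (fl a z')‖ +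
        ‖pt a (fl a z') - z'‖ := by
      rw [norm_sub_rev _ z]
      exact (norm_sub_le_norm_sub_add_norm_sub z (pt a (fl a z')) z').trans
        (add_le_add_left (norm_sub_le_norm_sub_add_norm_sub _ _ _) _)
    have h4 : a * r < a * zd (fl a z) (fl a z') := by
      linarith [norm_fl ha z, norm_fl ha z']
    exact_mod_cast lt_of_mul_lt_mul_left h4 ha.le
  · intro p hp
    obtain ⟨z, hz, rfl⟩ := Finset.mem_image.1 hp
    exact ht z hz r (by linarith [ρ2 z ((hG z).1 hz).1])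
  · rcases le_or_gt ‖pt a y‖ (T + 1) with hy | hy
    · obtain ⟨z, hz, h1⟩ := hF _ hy
      have h2 := ρ2 z hz
      by_cases e : Good (N + 38) D z (R z)
      · exact Or.inl (e.lat hT ha (by linarith))
      · have hz' : z ∈ G := (hG z).2 ⟨hz, e⟩
        refine Or.inr ⟨fl a z, Finset.mem_image_of_mem _ hz', _, le_rfl, ht z hz' _ ?_⟩
        have h3 := zd_le ha (y - fl a z)
        rw [← zd_eq, pt_sub] at h3
        have h4 := norm_sub_le_norm_sub_add_norm_sub (pt a y) z (pt a (fl a z))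
        rw [norm_sub_rev z] at h4
        push_cast
        linarith [norm_fl ha z, mul_add a (zd y (fl a z) : ℝ) r]
    · have e : D ∩ ball (pt a y) 1 = ∅ ∩ ball (pt a y) 1 :=
        Set.ext fun w => and_congr_left fun hw => ⟨fun o => by
          have h2 := hT w o
          have h3 := norm_sub_norm_le (pt a y) w
          rw [mem_ball_iff_norm'] at hw
          exfalso
          linarith, False.elim⟩
      refine Or.inl (Good.lat (z := pt a y) (R := 1) ⟨∅, ∅, 1, norm_one, fun _ o => o.elim, e,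
        fun b hb => (cov_row 0 0).mono (fun v ⟨⟨f, o, _⟩, _⟩ => o.elim) (by omega), e⟩ hT ha ?_)
      rw [sub_self, norm_zero]
      linarith
  · obtain ⟨z, hz, rfl⟩ := Finset.mem_image.1 hp
    exact ⟨z, hz, show ‖pt a (fl a z) - z‖ ≤ 10 * a by linarith [norm_fl ha z]⟩

end Vale.Agent.P144B.R9
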