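import Vale.Agent.P144C.Stmt

/-!
Domains that are locally Lipschitz or have a corner.
-/

namespace Vale.Agent.P144B

open Metric Vale.Agent.P144 Vale.Agent.P144Z

/-- Bounded open sets that near each point have a corner in the sense of `CornerK`, or are, after a
rotation, the region above the graph of a function with Lipschitz constant `K`. -/
def MixK (K α κ : ℝ) (D : Set ℂ) : Prop :=
  IsOpen D ∧ Bornology.IsBounded D ∧ ∀ z, CornerK α κ D z ∨ ∃ r > (0 : ℝ), ∃ u : ℂ, ‖u‖ = 1 ∧
    ∃ g : ℝ → ℝ, (∀ s t, |g s - g t| ≤ K * |s - t|) ∧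
      ∀ w ∈ ball z r, (w ∈ D ↔ g (u * w).re < (u * w).im)

end Vale.Agent.P144B
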